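import Vale.Agent.P253.R2.H445.VF.Defs3
import Vale.Agent.P253.R2.H445.VF.Final
import Vale.Agent.P253.R2.H156.RR7

/-!
P253: uniformization by a tame holomorphic vector field with a contracting zero in the closure of
all complex orbits.
-/

open scoped Manifold ContDiff Topology Bundle
open Set Metric Complex Filter Bundle IsManifold Manifold Vale.Agent.P253.Mfd Vale.Agent.P253.CStar

set_option maxSynthPendingDepth 3
set_option linter.unusedSectionVars false

noncomputable section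

namespace Vale.Agent.P253.R2.H445

section local_

variable {E : Type*} [NormedAddCommGroup E] [NormedSpace ℂ E] [FiniteDimensional ℂ E]
  {M : Type*} [MetricSpace M] [ChartedSpace E M] [IsManifold 𝓘(ℂ, E) 1 M]
  {X : M → E} {ψ : ℂ → M → M} {p : M} {e : OpenPartialHomeomorph M E}

theorem J_exp (h : IsHolCFlow E ψ) (horb : ∀ x, IsOrbitOn E X (fun ζ => ψ ζ x) univ)
    (he : e ∈ maximalAtlas 𝓘(ℂ, E) 1 M) (hfix : ∀ ζ, ψ ζ p = p) (hps : p ∈ e.source)
    {L : E →L[ℂ] E} (hL : HasFDerivAt (vfChart E X e) L (e p)) (v : E) (ζ : ℂ) :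
    H618.J ψ e p ζ v = NormedSpace.exp (ζ • L) v := by
  have hCE : CompleteSpace E := FiniteDimensional.complete ℂ E
  -- the equation `J' = L J`
  have h1 : ∀ ζ, HasDerivAt (fun w => H618.J ψ e p w v) (L (H618.J ψ e p ζ v)) ζ := by
    intro ζ
    have h2 := H618.hasDerivAt_J_zero h horb he hfix hps hL (H618.J ψ e p ζ v)
    have h4 : HasDerivAt (fun w => H618.J ψ e p w (H618.J ψ e p ζ v)) (L (H618.J ψ e p ζ v))
        (ζ - ζ) := by rwa [sub_self]
    have h5 : HasDerivAt (fun w : ℂ => w - ζ) 1 ζ := (hasDerivAt_id ζ).sub_const ζ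
    have h6 := HasDerivAt.scomp (g₁ := fun w => H618.J ψ e p w (H618.J ψ e p ζ v))
      (h := fun w : ℂ => w - ζ) ζ h4 h5
    rw [one_smul] at h6
    have h7 : (fun w => H618.J ψ e p w v) =
        (fun w => H618.J ψ e p w (H618.J ψ e p ζ v)) ∘ fun w : ℂ => w - ζ := by
      funext w
      have h8 := H618.J_add h he hfix hps (w - ζ) ζ
      rw [sub_add_cancel] at h8
      simp only [Function.comp_apply]
      rw [h8]
      rfl
    rw [h7]
    exact h6
  have h2 : ∀ ζ, HasDerivAt (fun w : ℂ => NormedSpace.exp (w • (-L)) (H618.J ψ e p w v)) 0 ζ := by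
    intro ζ
    have h3 : HasDerivAt (fun w : ℂ => NormedSpace.exp (w • (-L)))
        (NormedSpace.exp (ζ • (-L)) * (-L)) ζ := hasDerivAt_exp_smul_const (-L) ζ
    have h4 := h3.clm_apply (h1 ζ)
    have h5 : (NormedSpace.exp (ζ • (-L)) * (-L)) (H618.J ψ e p ζ v) +
        NormedSpace.exp (ζ • (-L)) (L (H618.J ψ e p ζ v)) = 0 := by
      simp
    rw [h5] at h4
    exact h4
  have h3 := is_const_of_deriv_eq_zero (fun ζ => (h2 ζ).differentiableAt) (fun ζ => (h2 ζ).deriv)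
    ζ 0
  simp only [zero_smul, NormedSpace.exp_zero] at h3
  rw [H618.J_zero h he hfix hps] at h3
  have h4 : (NormedSpace.exp (ζ • L) * NormedSpace.exp (ζ • (-L))) (H618.J ψ e p ζ v) =
      NormedSpace.exp (ζ • L) v := by
    change NormedSpace.exp (ζ • L) (NormedSpace.exp (ζ • (-L)) (H618.J ψ e p ζ v)) = _
    rw [h3]
    rfl
  have h5 : NormedSpace.exp (ζ • L) * NormedSpace.exp (ζ • (-L)) = 1 := by
    let _ : NormedAlgebra ℚ (E →L[ℂ] E) := NormedAlgebra.restrictScalars ℚ ℂ (E →L[ℂ] E)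
    rw [smul_neg, ← NormedSpace.exp_add_of_commute (Commute.neg_right (Commute.refl _)),
      add_neg_cancel, NormedSpace.exp_zero]
  rw [h5] at h4
  exact h4

theorem mfderiv_exp (hX : IsHolVectorField E X) (h : IsHolCFlow E ψ)
    (horb : ∀ x, IsOrbitOn E X (fun ζ => ψ ζ x) univ)
    (he : e ∈ maximalAtlas 𝓘(ℂ, E) 1 M) (hps : p ∈ e.source) (hp : X p = 0)
    {L : E →L[ℂ] E} (hL : HasFDerivAt (vfChart E X e) L (e p)) (ζ : ℂ) (v : E) :
    (mfderiv 𝓘(ℂ, E) 𝓘(ℂ, E) (ψ ζ) p : E → E) v =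
      (mfderiv 𝓘(ℂ, E) 𝓘(ℂ, E) e.symm (e p) : E → E)
        (NormedSpace.exp (ζ • L) ((mfderiv 𝓘(ℂ, E) 𝓘(ℂ, E) e p : E → E) v)) := by
  have hfix := H618.fixed_of_zero hX h horb hp
  let D' : E →L[ℂ] E := mfderiv 𝓘(ℂ, E) 𝓘(ℂ, E) e.symm (e p)
  let D : E →L[ℂ] E := mfderiv 𝓘(ℂ, E) 𝓘(ℂ, E) e p
  have h1 : (mfderiv 𝓘(ℂ, E) 𝓘(ℂ, E) (ψ ζ) p : E → E) v = D' (H618.J ψ e p ζ (D v)) :=
    H618.mfderiv_flow h he hfix hps ζ v
  rw [h1, J_exp h horb he hfix hps hL]
  rfl

end local_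

section main

variable {E : Type*} [NormedAddCommGroup E] [NormedSpace ℂ E] [FiniteDimensional ℂ E]
  {M : Type*} [MetricSpace M] [ChartedSpace E M]
  [IsManifold 𝓘(ℂ, E) 1 M] [IsManifold 𝓘(ℝ, E) ∞ M]
  [RiemannianBundle (fun x : M => TangentSpace 𝓘(ℝ, E) x)]
  [IsContMDiffRiemannianBundle 𝓘(ℝ, E) ∞ E (fun x : M => TangentSpace 𝓘(ℝ, E) x)]
  [IsRiemannianManifold 𝓘(ℝ, E) M]

/-- uniformization by one tame vector field with a contracting zero in the closure of all complex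
orbits -/
theorem unif_contracting (hK : IsKahler E M) [CompleteSpace M] [ConnectedSpace M]
    (hnn : ∀ x : M, NonnegBisectionalAt E x) {X : (x : M) → TangentSpace 𝓘(ℂ, E) x}
    (hX : IsHolVectorField E X) (h : IsTame E X) {p : M} (hz : IsContractingZero E X p)
    (hcl : ∀ γ : ℂ → M, IsOrbitOn E X γ univ → p ∈ closure (range γ)) :
    ∃ F : M ≃ₘ^1⟮𝓘(ℂ, E), 𝓘(ℂ, E)⟯ E, F p = 0 := by
  have hDS := DS_of_tame hK hnn hX h
  obtain ⟨hp, e, he, hps, A, c, hA, hlim⟩ := hz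
  obtain ⟨h1, h2⟩ := exists_cflow_of_univ (X := X) hX hDS
  set ψ : ℂ → M → M := FS (X : M → E) with hψ
  have hfix : ∀ ζ, ψ ζ p = p := H618.fixed_of_zero (X := X) hX h1 h2 hp
  by_cases hE : Subsingleton E
  · -- dimension zero
    have hc0 : Tendsto (fun t : ℝ => (0 : E)) atTop (𝓝 0) := tendsto_const_nhds
    refine H156.RR.unif_flow h1 hfix (fun v => ?_) fun x => hcl _ (h2 x)
    refine hc0.congr fun t => Subsingleton.elim _ _
  have hc : c ≠ 0 := by
    rintro rfl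
    have hN : Nontrivial E := not_subsingleton_iff_nontrivial.1 hE
    obtain ⟨v, hv⟩ := exists_ne (0 : E)
    have h3 := hlim v
    simp only [mul_zero, zero_smul, NormedSpace.exp_zero, one_apply_eq_self] at h3
    exact hv (tendsto_nhds_unique tendsto_const_nhds h3)
  -- the rescaled action
  have h3 : IsHolCFlow E fun ζ => ψ (ζ * c) := by
    refine ⟨fun x => ?_, fun s t x => ?_, ?_⟩
    · simp only [zero_mul]
      exact h1.zero x
    · simp only [add_mul]
      exact h1.add _ _ x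
    · have h4 : ContMDiff (𝓘(ℂ, ℂ).prod 𝓘(ℂ, E)) (𝓘(ℂ, ℂ).prod 𝓘(ℂ, E)) 1
          (fun q : ℂ × M => (q.1 * c, q.2)) := by
        have h5 : ContDiff ℂ 1 (fun z : ℂ => z * c) := by fun_prop
        have h6 : ContMDiff (𝓘(ℂ, ℂ).prod 𝓘(ℂ, E)) 𝓘(ℂ, ℂ) 1 (fun q : ℂ × M => q.1 * c) :=
          h5.contMDiff.comp contMDiff_fst
        exact h6.prodMk contMDiff_snd
      exact h1.holo.comp h4
  refine H156.RR.unif_flow h3 (fun ζ => hfix _) (fun v => ?_) fun x => ?_
  · let D : E →L[ℂ] E := mfderiv 𝓘(ℂ, E) 𝓘(ℂ, E) e p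
    let D' : E →L[ℂ] E := mfderiv 𝓘(ℂ, E) 𝓘(ℂ, E) e.symm (e p)
    have h4 := (D'.continuous.tendsto 0).comp (hlim (D v))
    rw [map_zero] at h4
    refine h4.congr fun t => ?_
    exact (mfderiv_exp (X := X) hX h1 h2 he hps hp hA ((t : ℂ) * c) v).symm
  · have h4 : (range fun ζ => ψ (ζ * c) x) = range fun ζ => ψ ζ x := by
      apply Subset.antisymm
      · rintro _ ⟨ζ, rfl⟩
        exact ⟨ζ * c, rfl⟩
      · rintro _ ⟨ζ, rfl⟩
        refine ⟨ζ / c, ?_⟩
        simp only [div_mul_cancel₀ _ hc]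
    rw [h4]
    exact hcl _ (h2 x)

theorem contracting_euler (F : M ≃ₘ^1⟮𝓘(ℂ, E), 𝓘(ℂ, E)⟯ E) :
    IsContractingZero E (eulerX F) (F.symm 0) := by
  have h0 : F (F.symm 0) = 0 := F.apply_symm_apply 0
  have hvf : vfChart E (eulerX F) (diffeoChart F) = id := funext fun z => vfChart_euler F z
  refine ⟨?_, diffeoChart F, diffeoChart_mem F, mem_univ _, ContinuousLinearMap.id ℂ E, -1, ?_,
    fun v => ?_⟩
  · change (mfderiv 𝓘(ℂ, E) 𝓘(ℂ, E) (diffeoChart F).symm (F (F.symm 0)) : E →L[ℂ] E)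
      (F (F.symm 0)) = 0
    rw [h0]
    exact ContinuousLinearMap.map_zero (show E →L[ℂ] E from
      mfderiv 𝓘(ℂ, E) 𝓘(ℂ, E) (diffeoChart F).symm (0 : E))
  · rw [hvf]
    exact hasFDerivAt_id _
  · have h1 : ∀ t : ℝ, NormedSpace.exp (((t : ℂ) * -1) • ContinuousLinearMap.id ℂ E) v =
        exp (-(t : ℂ)) • v := by
      intro t
      have h2 : ((t : ℂ) * -1) • ContinuousLinearMap.id ℂ E =
          algebraMap ℂ (E →L[ℂ] E) (-(t : ℂ)) := by
        rw [mul_neg_one, Algebra.algebraMap_eq_smul_one]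
        rfl
      rw [h2, ← NormedSpace.algebraMap_exp_comm, Algebra.algebraMap_eq_smul_one,
        ← Complex.exp_eq_exp_ℂ]
      rfl
    simp only [h1]
    have h2 : Tendsto (fun t : ℝ => exp (-(t : ℂ))) atTop (𝓝 0) := by
      have h5 := (continuous_ofReal.tendsto 0).comp Real.tendsto_exp_neg_atTop_nhds_zero
      simpa [Function.comp_def] using h5
    simpa using h2.smul_const v

theorem iff_contracting_field (hK : IsKahler E M) [CompleteSpace M] [ConnectedSpace M]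
    (hnn : ∀ x : M, NonnegBisectionalAt E x) :
    Nonempty (M ≃ₘ^1⟮𝓘(ℂ, E), 𝓘(ℂ, E)⟯ E) ↔
      ∃ (X : (x : M) → TangentSpace 𝓘(ℂ, E) x) (p : M),
        IsHolVectorField E X ∧ IsTame E X ∧ IsContractingZero E X p ∧
          ∀ γ : ℂ → M, IsOrbitOn E X γ univ → p ∈ closure (range γ) := by
  constructor
  · rintro ⟨F⟩
    refine ⟨eulerX F, F.symm 0, holVF_euler F, ?_, contracting_euler F, fun γ hγ => ?_⟩
    · refine Or.inr (Or.inl ⟨F.symm 0, fun ε _ R₀ => ⟨R₀ + 1, lt_add_one R₀, fun x _ => ?_⟩⟩)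
      refine ⟨fun ζ => (diffeoChart F).symm (exp ζ • F x), ?_,
        orb_mono (orbit_euler F x) (subset_univ _)⟩
      simp only [exp_zero, one_smul]
      exact F.symm_apply_apply x
    · have h1 := DS_euler F
      have h2 : γ = fun ζ => FS (eulerX F) ζ (γ 0) := by
        funext ζ
        exact ((DS_conv (holVF_euler F) isOpen_univ convex_univ (mem_univ _) hγ rfl
          (mem_univ ζ)).2).symm
      rw [h2]
      have h3 : (fun ζ => FS (eulerX F) ζ (γ 0)) = fun ζ => F.symm (exp ζ • F (γ 0)) :=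
        funext fun ζ => h1.2 ζ (γ 0)
      rw [h3]
      exact closure_euler F (γ 0)
  · rintro ⟨X, p, hX, h, hz, hcl⟩
    obtain ⟨F, -⟩ := unif_contracting hK hnn hX h hz hcl
    exact ⟨F⟩

end main

end Vale.Agent.P253.R2.H445
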